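import Mathlib.Analysis.InnerProductSpace.Adjoint
import Mathlib.Analysis.InnerProductSpace.Orientation
import Mathlib.LinearAlgebra.FreeModule.PID
import Vale.Agent.Lib.P219.Defs

/-! # P219 linear algebra: determinants of contractions -/

namespace Vale.Agent.Lib.P219.LA

open MeasureTheory Set

/-- Hadamard's inequality for the columns in an orthonormal basis -/
private theorem abs_det_le_prod {n : ℕ} (A : Ev n →L[ℝ] Ev n)
    (b : OrthonormalBasis (Fin n) ℝ (Ev n)) :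
    |A.det| ≤ ∏ i, ‖A (b i)‖ := by
  have : Fact (Module.finrank ℝ (Ev n) = n) := ⟨by simp⟩
  have h := (b.toBasis.orientation).abs_volumeForm_apply_le (fun i => A (b i))
  rw [(b.toBasis.orientation).volumeForm_robust' b] at h
  have e : b.toBasis.det (fun i => A (b i)) = A.det := by
    have := b.toBasis.det_comp (A : Ev n →ₗ[ℝ] Ev n) b.toBasis
    rw [Module.Basis.det_self, mul_one] at this
    have e2 : (fun i => A (b i)) = (A : Ev n →ₗ[ℝ] Ev n) ∘ (b.toBasis : Fin n → Ev n) := by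
      funext i
      simp
    rw [e2, this]
  rwa [e] at h

/-- Hadamard's inequality: for a contraction `A`, `|det A| ‖ξ‖ ≤ ‖A ξ‖`. -/
theorem abs_det_mul_norm_le {n : ℕ} (A : Ev n →L[ℝ] Ev n) (hA : ∀ ξ, ‖A ξ‖ ≤ ‖ξ‖) (ξ : Ev n) :
    |A.det| * ‖ξ‖ ≤ ‖A ξ‖ := by
  by_cases hξ : ξ = 0
  · subst hξ
    simp
  have hn : 0 < ‖ξ‖ := norm_pos_iff.mpr hξ
  obtain ⟨m, rfl⟩ : ∃ m, n = m + 1 := by
    rcases n with - | m
    · exact absurd (Subsingleton.elim ξ 0) hξ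
    · exact ⟨m, rfl⟩
  set e1 : Ev (m + 1) := ‖ξ‖⁻¹ • ξ with he1
  have hne1 : ‖e1‖ = 1 := by
    rw [he1, norm_smul, norm_inv, norm_norm, inv_mul_cancel₀ hn.ne']
  have hon : Orthonormal ℝ (({0} : Set (Fin (m + 1))).domRestrict
      (fun _ : Fin (m + 1) => e1)) := by
    constructor
    · intro i
      exact hne1
    · intro i j hij
      exact absurd (Subsingleton.elim i j) hij
  obtain ⟨b, hb⟩ := hon.exists_orthonormalBasis_extension_of_card_eq (by simp)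
  have hb0 : b 0 = e1 := hb 0 (by simp)
  have h := abs_det_le_prod A b
  rw [Fin.prod_univ_succ, hb0] at h
  have h2 : ∏ i : Fin m, ‖A (b i.succ)‖ ≤ 1 := by
    apply Finset.prod_le_one
    · intro i _
      positivity
    · intro i _
      refine (hA _).trans ?_
      rw [b.orthonormal.1]
  have h3 : |A.det| ≤ ‖A e1‖ := by
    refine h.trans ?_
    exact mul_le_of_le_one_right (norm_nonneg _) h2
  have h4 : ‖A e1‖ * ‖ξ‖ = ‖A ξ‖ := by
    rw [he1, map_smul, norm_smul, norm_inv, norm_norm]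
    field_simp
  calc |A.det| * ‖ξ‖ ≤ ‖A e1‖ * ‖ξ‖ := mul_le_mul_of_nonneg_right h3 hn.le
    _ = ‖A ξ‖ := h4

theorem abs_det_le_one {n : ℕ} (A : Ev n →L[ℝ] Ev n) (hA : ∀ ξ, ‖A ξ‖ ≤ ‖ξ‖) :
    |A.det| ≤ 1 := by
  refine (abs_det_le_prod A (EuclideanSpace.basisFun (Fin n) ℝ)).trans ?_
  apply Finset.prod_le_one
  · intro i _
    positivity
  · intro i _
    refine (hA _).trans ?_
    rw [(EuclideanSpace.basisFun (Fin n) ℝ).orthonormal.1]

/-- factorisation through an injective map -/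
private theorem exists_factor {n : ℕ} (P₁ P₂ : Ev n →L[ℝ] Ev n) (h : ∀ ξ, ‖P₁ ξ‖ ≤ ‖P₂ ξ‖)
    (hinj : Function.Injective P₂) :
    ∃ A : Ev n →L[ℝ] Ev n, (∀ ξ, A (P₂ ξ) = P₁ ξ) ∧ (∀ η, ‖A η‖ ≤ ‖η‖) ∧
      Function.Surjective P₂ ∧ P₁.det = A.det * P₂.det := by
  have hinj' : Function.Injective (P₂ : Ev n →ₗ[ℝ] Ev n) := hinj
  have hsurj : Function.Surjective (P₂ : Ev n →ₗ[ℝ] Ev n) :=
    LinearMap.injective_iff_surjective.mp hinj'
  set E : Ev n ≃ₗ[ℝ] Ev n := LinearEquiv.ofBijective (P₂ : Ev n →ₗ[ℝ] Ev n) ⟨hinj', hsurj⟩ with hE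
  have hE1 : ∀ ξ, E ξ = P₂ ξ := fun ξ => rfl
  set A' : Ev n →ₗ[ℝ] Ev n := (P₁ : Ev n →ₗ[ℝ] Ev n).comp (E.symm : Ev n →ₗ[ℝ] Ev n) with hA'
  refine ⟨LinearMap.toContinuousLinearMap A', ?_, ?_, hsurj, ?_⟩
  · intro ξ
    have : E.symm (P₂ ξ) = ξ := by rw [← hE1, E.symm_apply_apply]
    simp [hA', this]
  · intro η
    obtain ⟨ξ, rfl⟩ := hsurj η
    have : E.symm (P₂ ξ) = ξ := by rw [← hE1, E.symm_apply_apply]
    have e : LinearMap.toContinuousLinearMap A' ((P₂ : Ev n →ₗ[ℝ] Ev n) ξ) = P₁ ξ := by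
      simp [hA', this]
    rw [e]
    exact h ξ
  · have e : (P₁ : Ev n →ₗ[ℝ] Ev n) = A' ∘ₗ (P₂ : Ev n →ₗ[ℝ] Ev n) := by
      ext1 ξ
      have : E.symm (P₂ ξ) = ξ := by rw [← hE1, E.symm_apply_apply]
      simp [hA', this]
    have := congrArg LinearMap.det e
    rw [LinearMap.det_comp] at this
    exact this

/-- monotonicity of the determinant -/
theorem abs_det_mono {n : ℕ} (P₁ P₂ : Ev n →L[ℝ] Ev n) (h : ∀ ξ, ‖P₁ ξ‖ ≤ ‖P₂ ξ‖) :
    |P₁.det| ≤ |P₂.det| := by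
  by_cases hinj : Function.Injective P₂
  · obtain ⟨A, -, hA, -, hdet⟩ := exists_factor P₁ P₂ h hinj
    rw [hdet, abs_mul]
    exact mul_le_of_le_one_left (abs_nonneg _) (abs_det_le_one A hA)
  · have hdet : P₁.det = 0 := by
      by_contra hne
      apply hinj
      have hu : IsUnit (LinearMap.det (P₁ : Ev n →ₗ[ℝ] Ev n)) := isUnit_iff_ne_zero.mpr hne
      have h1 : Function.Injective P₁ := by
        have := (LinearMap.isUnit_iff_isUnit_det (P₁ : Ev n →ₗ[ℝ] Ev n)).mpr hu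
        exact ((Module.End.isUnit_iff _).mp this).1
      intro x y hxy
      have h2 : ‖P₁ (x - y)‖ ≤ 0 := by
        refine (h _).trans ?_
        rw [map_sub, hxy, sub_self, norm_zero]
      have h3 : P₁ (x - y) = 0 := norm_le_zero_iff.mp h2
      rw [map_sub, sub_eq_zero] at h3
      exact h1 h3
    rw [hdet, abs_zero]
    exact abs_nonneg _

theorem one_le_abs_det {n : ℕ} (P : Ev n →L[ℝ] Ev n) (h : ∀ ξ, ‖ξ‖ ≤ ‖P ξ‖) :
    1 ≤ |P.det| := by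
  have := abs_det_mono (ContinuousLinearMap.id ℝ (Ev n)) P h
  have e : (ContinuousLinearMap.id ℝ (Ev n)).det = 1 := by
    show LinearMap.det (LinearMap.id : Ev n →ₗ[ℝ] Ev n) = 1
    exact LinearMap.det_id
  rwa [e, abs_one] at this

private theorem det_adj {n : ℕ} (A : Ev n →L[ℝ] Ev n) :
    (ContinuousLinearMap.adjoint A).det = A.det := by
  set b := EuclideanSpace.basisFun (Fin n) ℝ
  have h1 : (ContinuousLinearMap.adjoint A).det =
      LinearMap.det (LinearMap.adjoint (A : Ev n →ₗ[ℝ] Ev n)) := by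
    show LinearMap.det ((ContinuousLinearMap.adjoint A : Ev n →L[ℝ] Ev n) : Ev n →ₗ[ℝ] Ev n) = _
    rfl
  rw [h1, ← LinearMap.det_toMatrix b.toBasis, LinearMap.toMatrix_adjoint,
    Matrix.det_conjTranspose, LinearMap.det_toMatrix]
  simp

/-- monotonicity of cofactors: if `P₁ᵀ q = P₂ᵀ p` and `‖P₁ ξ‖ ≤ ‖P₂ ξ‖` then
`|det P₁| ‖q‖ ≤ |det P₂| ‖p‖`. -/
theorem cofactor_mono {n : ℕ} (P₁ P₂ : Ev n →L[ℝ] Ev n) (h : ∀ ξ, ‖P₁ ξ‖ ≤ ‖P₂ ξ‖)
    (h2 : ∀ ξ, ‖ξ‖ ≤ ‖P₂ ξ‖) (p q : Ev n)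
    (hpq : ∀ ξ, inner ℝ q (P₁ ξ) = inner ℝ p (P₂ ξ)) :
    |P₁.det| * ‖q‖ ≤ |P₂.det| * ‖p‖ := by
  have hinj : Function.Injective P₂ := by
    intro x y hxy
    have h3 : ‖x - y‖ ≤ 0 := by
      refine (h2 _).trans ?_
      rw [map_sub, hxy, sub_self, norm_zero]
    exact sub_eq_zero.mp (norm_le_zero_iff.mp h3)
  obtain ⟨A, hA1, hA2, hsurj, hdet⟩ := exists_factor P₁ P₂ h hinj
  have hp : ContinuousLinearMap.adjoint A q = p := by
    apply ext_inner_right ℝ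
    intro η
    obtain ⟨ξ, rfl⟩ := hsurj η
    rw [ContinuousLinearMap.adjoint_inner_left, hA1]
    exact hpq ξ
  have hcontr : ∀ ξ, ‖ContinuousLinearMap.adjoint A ξ‖ ≤ ‖ξ‖ := by
    intro ξ
    have h4 : ‖A‖ ≤ 1 := A.opNorm_le_bound zero_le_one (fun x => by rw [one_mul]; exact hA2 x)
    calc ‖ContinuousLinearMap.adjoint A ξ‖ ≤ ‖ContinuousLinearMap.adjoint A‖ * ‖ξ‖ :=
          ContinuousLinearMap.le_opNorm _ _
      _ = ‖A‖ * ‖ξ‖ := by rw [LinearIsometryEquiv.norm_map]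
      _ ≤ 1 * ‖ξ‖ := mul_le_mul_of_nonneg_right h4 (norm_nonneg _)
      _ = ‖ξ‖ := one_mul _
  have h5 := abs_det_mul_norm_le (ContinuousLinearMap.adjoint A) hcontr q
  rw [det_adj, hp] at h5
  rw [hdet, abs_mul]
  calc |A.det| * |P₂.det| * ‖q‖ = |P₂.det| * (|A.det| * ‖q‖) := by ring
    _ ≤ |P₂.det| * ‖p‖ := mul_le_mul_of_nonneg_left h5 (abs_nonneg _)

end Vale.Agent.Lib.P219.LA
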