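import Mathlib.LinearAlgebra.Matrix.Charpoly.Basic
import Vale.Agent.Lib.P219.LA.Det

/-! # P219 linear algebra: the derivative of a radial map -/

namespace Vale.Agent.Lib.P219.LA

open MeasureTheory Set

/-- The linear map `ξ ↦ μ ξ + ⟨(ρ - μ) ω + β, ξ⟩ ω`. -/
noncomputable def Dm {n : ℕ} (μ ρ : ℝ) (ω β : Ev n) : Ev n →L[ℝ] Ev n :=
  μ • ContinuousLinearMap.id ℝ (Ev n)
    + ((innerSL ℝ ((ρ - μ) • ω + β)).smulRight ω : Ev n →L[ℝ] Ev n)

theorem Dm_apply {n : ℕ} (μ ρ : ℝ) (ω β ξ : Ev n) :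
    Dm μ ρ ω β ξ = μ • ξ + inner ℝ ((ρ - μ) • ω + β) ξ • ω := by
  rfl

/-- determinant of `μ + v c^T` -/
private theorem rank_det {n : ℕ} (hn : 1 ≤ n) (μ : ℝ) (v c : Fin n → ℝ) :
    (Matrix.scalar (Fin n) μ + Matrix.vecMulVec v c).det = (μ + v ⬝ᵥ c) * μ ^ (n - 1) := by
  have h := congrArg (Polynomial.eval μ) (Matrix.charpoly_vecMulVec (-v) c)
  rw [Matrix.eval_charpoly, Matrix.neg_vecMulVec, sub_neg_eq_add] at h
  rw [h]
  obtain ⟨m, rfl⟩ := Nat.exists_eq_add_of_le' hn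
  simp only [Fintype.card_fin, Nat.add_sub_cancel, neg_dotProduct, Polynomial.eval_sub,
    Polynomial.eval_pow, Polynomial.eval_X, Polynomial.eval_smul, smul_eq_mul]
  ring

theorem det_Dm {n : ℕ} (hn : 1 ≤ n) (μ ρ : ℝ) (ω β : Ev n) (hω : ‖ω‖ = 1)
    (hβ : inner ℝ β ω = 0) : (Dm μ ρ ω β).det = ρ * μ ^ (n - 1) := by
  have h1 : (Dm μ ρ ω β).det =
      (Matrix.scalar (Fin n) μ + Matrix.vecMulVec (fun i => ω i)
        (fun i => ((ρ - μ) • ω + β) i)).det := by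
    show LinearMap.det ((Dm μ ρ ω β : Ev n →L[ℝ] Ev n) : Ev n →ₗ[ℝ] Ev n) = _
    rw [← LinearMap.det_toMatrix (EuclideanSpace.basisFun (Fin n) ℝ).toBasis]
    congr 1
    ext i j
    rw [LinearMap.toMatrix_apply]
    show (Dm μ ρ ω β ((EuclideanSpace.basisFun (Fin n) ℝ).toBasis j)) i = _
    rw [OrthonormalBasis.coe_toBasis, EuclideanSpace.basisFun_apply, Dm_apply, PiLp.add_apply,
      PiLp.smul_apply, PiLp.smul_apply, EuclideanSpace.inner_single_right, Matrix.add_apply,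
      Matrix.scalar_apply, Matrix.diagonal_apply, Matrix.vecMulVec_apply, PiLp.single_apply]
    simp only [smul_eq_mul, conj_trivial, one_mul, mul_ite, mul_one, mul_zero]
    ring
  have h2 : (fun i => ω i) ⬝ᵥ (fun i => ((ρ - μ) • ω + β) i) = ρ - μ := by
    have h3 : inner ℝ ((ρ - μ) • ω + β) ω = ρ - μ := by
      rw [inner_add_left, inner_smul_left, real_inner_self_eq_norm_sq, hω, hβ, conj_trivial]
      ring
    refine Eq.trans ?_ h3
    rw [PiLp.inner_apply]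
    refine Finset.sum_congr rfl fun i _ => ?_
    rw [RCLike.inner_apply, conj_trivial]
  rw [h1, rank_det hn, h2, add_sub_cancel]

end Vale.Agent.Lib.P219.LA
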