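import Mathlib.Algebra.Order.Star.Real
import Vale.Agent.Lib.P219.LA.Rank

/-! # P219 linear algebra: the area factor of the contraction -/

namespace Vale.Agent.Lib.P219.LA

open MeasureTheory Set

/-- existence of the transposed preimage, with its norm bound -/
private theorem area_dual {n : ℕ} (P : Ev n →L[ℝ] Ev n) (h2 : ∀ ξ, ‖ξ‖ ≤ ‖P ξ‖) (β : Ev n) :
    ∃ β' : Ev n, (∀ ξ, inner ℝ β' (P ξ) = inner ℝ β ξ) ∧ ‖β'‖ ≤ ‖β‖ := by
  have hinj : Function.Injective (P : Ev n →ₗ[ℝ] Ev n) := by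
    rw [← LinearMap.ker_eq_bot, LinearMap.ker_eq_bot']
    intro m hm
    have h := h2 m
    have hm' : P m = 0 := hm
    rw [hm', norm_zero] at h
    exact norm_le_zero_iff.1 h
  have hsur : Function.Surjective (P : Ev n →ₗ[ℝ] Ev n) := LinearMap.surjective_of_injective hinj
  let e : Ev n ≃ₗ[ℝ] Ev n := LinearEquiv.ofBijective (P : Ev n →ₗ[ℝ] Ev n) ⟨hinj, hsur⟩
  let β' : Ev n := (InnerProductSpace.toDual ℝ (Ev n)).symm
    (LinearMap.toContinuousLinearMap ((innerSL ℝ β : Ev n →L[ℝ] ℝ).toLinearMap ∘ₗ e.symm.toLinearMap))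
  have h1 : ∀ y, inner ℝ β' y = inner ℝ β (e.symm y) := by
    intro y
    exact InnerProductSpace.toDual_symm_apply
  have h3 : ∀ ξ, inner ℝ β' (P ξ) = inner ℝ β ξ := by
    intro ξ
    rw [h1]
    congr 1
    exact e.symm_apply_apply ξ
  refine ⟨β', h3, ?_⟩
  obtain ⟨η, hη⟩ := hsur β'
  have hη' : P η = β' := hη
  have h4 : ‖β'‖ * ‖β'‖ ≤ ‖β‖ * ‖β'‖ := by
    calc ‖β'‖ * ‖β'‖ = inner ℝ β' β' := (real_inner_self_eq_norm_mul_norm β').symm
      _ = inner ℝ β' (P η) := by rw [hη']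
      _ = inner ℝ β η := h3 η
      _ ≤ ‖β‖ * ‖η‖ := real_inner_le_norm β η
      _ ≤ ‖β‖ * ‖β'‖ := by
        refine mul_le_mul_of_nonneg_left ?_ (norm_nonneg _)
        rw [← hη']
        exact h2 η
  rcases (norm_nonneg β').eq_or_lt with h5 | h5
  · rw [← h5]
    exact norm_nonneg _
  · exact le_of_mul_le_mul_right h4 h5

/-- Pointwise area estimate.  `P₂` is the derivative of the exponential map at `w` (direction `ω`),
`P₁` the one at the contracted point, `Dm μ ρ ω β` the derivative of the contraction in the tangent space,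
`p`, `q` the gradients of `u` and of the transported function. -/
theorem area_factor {n : ℕ} (hn : 2 ≤ n) (P₁ P₂ : Ev n →L[ℝ] Ev n) (ω β p q : Ev n) (μ ρ : ℝ)
    (hμ : 0 < μ) (hρ : 0 < ρ) (hω : ‖ω‖ = 1) (hβ : inner ℝ β ω = 0)
    (h12 : ∀ ξ, ‖P₁ ξ‖ ≤ ‖P₂ ξ‖) (h2 : ∀ ξ, ‖ξ‖ ≤ ‖P₂ ξ‖)
    (hg1 : ∀ ξ, inner ℝ (P₁ ω) (P₁ ξ) = inner ℝ ω ξ)
    (hg2 : ∀ ξ, inner ℝ (P₂ ω) (P₂ ξ) = inner ℝ ω ξ)
    (hpq : ∀ ξ, inner ℝ q (P₁ (Dm μ ρ ω β ξ)) = inner ℝ p (P₂ ξ))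
    (c : ℝ) (hc : |c| ≤ 1) (hcp : c * ‖p‖ = -inner ℝ p (P₂ ω)) :
    |P₁.det| * (ρ * μ ^ (n - 1)) * ‖q‖
      ≤ |P₂.det| * ‖p‖ * Real.sqrt (c ^ 2 * μ ^ (2 * n - 2)
          + μ ^ (2 * n - 4) * (ρ * Real.sqrt (1 - c ^ 2) + |c| * ‖β‖) ^ 2) := by
  obtain ⟨β', hβ', hβn⟩ := area_dual P₂ h2 β
  -- the unit vector
  have he : inner ℝ (P₂ ω) (P₂ ω) = 1 := by
    rw [hg2, real_inner_self_eq_norm_mul_norm, hω, one_mul]
  have hbe : inner ℝ β' (P₂ ω) = 0 := by rw [hβ', hβ]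
  obtain ⟨a, ha⟩ : ∃ a : ℝ, a = inner ℝ p (P₂ ω) := ⟨_, rfl⟩
  obtain ⟨e, hedef⟩ : ∃ e, e = P₂ ω := ⟨_, rfl⟩
  have hac : a = -(c * ‖p‖) := by rw [hcp, ha, neg_neg]
  obtain ⟨b, hb⟩ : ∃ b, b = p - a • e := ⟨_, rfl⟩
  have hp : p = a • e + b := by rw [hb]; abel
  have hee : inner ℝ e e = (1 : ℝ) := by rw [hedef, he]
  have hbe' : inner ℝ b e = (0 : ℝ) := by
    rw [hb, inner_sub_left, real_inner_smul_left, hee, hedef, ← ha]
    ring
  have hb'e : inner ℝ β' e = (0 : ℝ) := by rw [hedef, hbe]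
  have hbb : ‖b‖ ^ 2 = (1 - c ^ 2) * ‖p‖ ^ 2 := by
    have h1 : inner ℝ p p = a ^ 2 + inner ℝ b b := by
      conv_lhs => rw [hp]
      rw [inner_add_left, inner_add_right, inner_add_right, real_inner_smul_left,
        real_inner_smul_right, real_inner_smul_left, real_inner_smul_right, hee,
        real_inner_comm b e, hbe']
      ring
    rw [real_inner_self_eq_norm_sq, real_inner_self_eq_norm_sq, hac] at h1
    linarith
  have hc2 : 0 ≤ 1 - c ^ 2 := by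
    have := (sq_le_one_iff_abs_le_one c).2 hc
    linarith
  have hbn : ‖b‖ = Real.sqrt (1 - c ^ 2) * ‖p‖ := by
    have h3 : Real.sqrt (1 - c ^ 2) * ‖p‖ = Real.sqrt (‖b‖ ^ 2) := by
      rw [hbb, Real.sqrt_mul hc2, Real.sqrt_sq (norm_nonneg p)]
    rw [h3, Real.sqrt_sq (norm_nonneg b)]
  -- the transported covector
  obtain ⟨q₂, hq₂⟩ : ∃ q₂, q₂ = (a / ρ) • e + μ⁻¹ • (b - (a / ρ) • β') := ⟨_, rfl⟩
  have hz1 : ρ * inner ℝ q (P₁ ω) = a := by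
    have h1 := hpq ω
    rw [Dm_apply, inner_add_left, hβ, real_inner_smul_left, real_inner_self_eq_norm_mul_norm, hω,
      map_add, map_smul, map_smul, inner_add_right, real_inner_smul_right, real_inner_smul_right,
      ← ha] at h1
    linarith
  have hz1' : inner ℝ q (P₁ ω) = a / ρ := by
    rw [eq_div_iff hρ.ne', mul_comm]
    exact hz1
  have hqq : ∀ ξ, inner ℝ q (P₁ ξ) = inner ℝ q₂ (P₂ ξ) := by
    intro ξ
    have h1 := hpq ξ
    rw [Dm_apply, map_add, map_smul, map_smul, inner_add_right, real_inner_smul_right,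
      real_inner_smul_right, hz1', inner_add_left, real_inner_smul_left] at h1
    have h2 : inner ℝ p (P₂ ξ) = a * inner ℝ ω ξ + inner ℝ b (P₂ ξ) := by
      conv_lhs => rw [hp]
      rw [inner_add_left, real_inner_smul_left, hedef, hg2]
    rw [h2] at h1
    rw [hq₂, inner_add_left, real_inner_smul_left, hedef, hg2, real_inner_smul_left,
      inner_sub_left, real_inner_smul_left, hβ']
    have h3 : a / ρ * ρ = a := div_mul_cancel₀ a hρ.ne'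
    generalize a / ρ = t at *
    subst h3
    field_simp
    linarith
  have hcof := cofactor_mono P₁ P₂ h12 h2 q₂ q hqq
  have hq₂n : ‖q₂‖ ^ 2 = (a / ρ) ^ 2 + (μ⁻¹) ^ 2 * ‖b - (a / ρ) • β'‖ ^ 2 := by
    have h1 : inner ℝ e (b - (a / ρ) • β') = (0 : ℝ) := by
      rw [real_inner_comm, inner_sub_left, real_inner_smul_left, hbe', hb'e]
      ring
    rw [hq₂, ← real_inner_self_eq_norm_sq, ← real_inner_self_eq_norm_sq, inner_add_left,
      inner_add_right, inner_add_right, real_inner_smul_left, real_inner_smul_left,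
      real_inner_smul_left, real_inner_smul_left, real_inner_smul_right, real_inner_smul_right,
      real_inner_smul_right, real_inner_smul_right, h1, real_inner_comm e (b - (a / ρ) • β'), h1, hee]
    ring
  have hmain : ρ * μ ^ (n - 1) * ‖q₂‖ ≤ ‖p‖ * Real.sqrt (c ^ 2 * μ ^ (2 * n - 2)
          + μ ^ (2 * n - 4) * (ρ * Real.sqrt (1 - c ^ 2) + |c| * ‖β‖) ^ 2) := by
    have h1 : ‖ρ • b - a • β'‖ ≤ ‖p‖ * (ρ * Real.sqrt (1 - c ^ 2) + |c| * ‖β‖) := by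
      calc ‖ρ • b - a • β'‖ ≤ ‖ρ • b‖ + ‖a • β'‖ := norm_sub_le _ _
        _ = ρ * (Real.sqrt (1 - c ^ 2) * ‖p‖) + |c| * ‖p‖ * ‖β'‖ := by
          rw [norm_smul, norm_smul, Real.norm_eq_abs, Real.norm_eq_abs, abs_of_pos hρ, hbn, hac,
            abs_neg, abs_mul, abs_norm]
        _ ≤ ρ * (Real.sqrt (1 - c ^ 2) * ‖p‖) + |c| * ‖p‖ * ‖β‖ := by
          refine add_le_add le_rfl (mul_le_mul_of_nonneg_left hβn ?_)
          positivity
        _ = ‖p‖ * (ρ * Real.sqrt (1 - c ^ 2) + |c| * ‖β‖) := by ring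
    have h2 : (ρ * μ ^ (n - 1) * ‖q₂‖) ^ 2 = a ^ 2 * μ ^ (2 * n - 2) +
        μ ^ (2 * n - 4) * ‖ρ • b - a • β'‖ ^ 2 := by
      have h3 : ρ • b - a • β' = ρ • (b - (a / ρ) • β') := by
        rw [smul_sub, smul_smul, mul_div_cancel₀ a hρ.ne']
      obtain ⟨m, rfl⟩ : ∃ m, n = m + 2 := ⟨n - 2, by omega⟩
      have e1 : m + 2 - 1 = m + 1 := by omega
      have e2 : 2 * (m + 2) - 2 = 2 * m + 2 := by omega
      have e3 : 2 * (m + 2) - 4 = 2 * m := by omega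
      rw [h3, norm_smul, Real.norm_eq_abs, abs_of_pos hρ, mul_pow, hq₂n, e1, e2, e3]
      have h4 : a = a / ρ * ρ := (div_mul_cancel₀ a hρ.ne').symm
      generalize a / ρ = t at *
      rw [h4]
      generalize ‖b - t • β'‖ = y
      field_simp
      ring
    have h5 : (ρ * μ ^ (n - 1) * ‖q₂‖) ^ 2 ≤ ‖p‖ ^ 2 * (c ^ 2 * μ ^ (2 * n - 2)
          + μ ^ (2 * n - 4) * (ρ * Real.sqrt (1 - c ^ 2) + |c| * ‖β‖) ^ 2) := by
      rw [h2]
      have h6 : ‖ρ • b - a • β'‖ ^ 2 ≤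
          (‖p‖ * (ρ * Real.sqrt (1 - c ^ 2) + |c| * ‖β‖)) ^ 2 :=
        pow_le_pow_left₀ (norm_nonneg _) h1 2
      have h7 : 0 ≤ μ ^ (2 * n - 4) := by positivity
      calc a ^ 2 * μ ^ (2 * n - 2) + μ ^ (2 * n - 4) * ‖ρ • b - a • β'‖ ^ 2
          ≤ a ^ 2 * μ ^ (2 * n - 2) + μ ^ (2 * n - 4) *
            (‖p‖ * (ρ * Real.sqrt (1 - c ^ 2) + |c| * ‖β‖)) ^ 2 :=
            add_le_add le_rfl (mul_le_mul_of_nonneg_left h6 h7)
        _ = _ := by rw [hac]; ring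
    have h8 : ρ * μ ^ (n - 1) * ‖q₂‖ = Real.sqrt ((ρ * μ ^ (n - 1) * ‖q₂‖) ^ 2) := by
      rw [Real.sqrt_sq]
      positivity
    rw [h8]
    refine (Real.sqrt_le_sqrt h5).trans ?_
    rw [Real.sqrt_mul (sq_nonneg _), Real.sqrt_sq (norm_nonneg _)]
  have hpos : 0 ≤ ρ * μ ^ (n - 1) := by positivity
  calc |P₁.det| * (ρ * μ ^ (n - 1)) * ‖q‖ = (|P₁.det| * ‖q‖) * (ρ * μ ^ (n - 1)) := by ring
    _ ≤ (|P₂.det| * ‖q₂‖) * (ρ * μ ^ (n - 1)) := mul_le_mul_of_nonneg_right hcof hpos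
    _ = |P₂.det| * (ρ * μ ^ (n - 1) * ‖q₂‖) := by ring
    _ ≤ |P₂.det| * (‖p‖ * Real.sqrt (c ^ 2 * μ ^ (2 * n - 2)
          + μ ^ (2 * n - 4) * (ρ * Real.sqrt (1 - c ^ 2) + |c| * ‖β‖) ^ 2)) :=
        mul_le_mul_of_nonneg_left hmain (abs_nonneg _)
    _ = _ := by ring

end Vale.Agent.Lib.P219.LA
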